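import Vale.Agent.P150.Beyond.Mix
import Vale.Agent.P150.Beyond.Defs

/-!
# P150, all temperatures below one: mixing from an entropy bound with any defect and a gap

Entropy falls to a constant in logarithmic time. The density is then bounded off a set of small
mass, and the Poincare inequality finishes in constant time.
-/

open Finset Real
open Vale.Agent.P150.Fast
open Vale.Agent.P150.Fast.Ent (ent entAt phi sg)

namespace Vale.Agent.P150.Full.E

section Ising

variable {ι : Type} [Fintype ι] [DecidableEq ι] {J : ι → ι → ℝ} {h : ι → ℝ}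

theorem sg_comp (s t : ℝ) (f : (ι → Bool) → ℝ) : sg J h s (sg J h t f) = sg J h (s + t) f := by
  simp only [sg, Matrix.mulVec_mulVec]
  rw [← Matrix.exp_add_of_commute _ _ (((Commute.refl (lapMat J h)).smul_left s).smul_right t),
    ← add_smul]

theorem mean_mul_lap (hJ : IsCoupling J) (f : (ι → Bool) → ℝ) :
    mean J h (fun x => f x * lap J h f x) = -∑ i, site J h i f := by
  simp only [site_eq_mean_mul_dev h hJ, ← mean_sum]
  simp only [mean, ← Finset.sum_neg_distrib, lap_eq, Finset.mul_sum]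
  exact Finset.sum_congr rfl fun x _ => Finset.sum_congr rfl fun i _ => by ring

/-- The variance decays along the semigroup at the rate of the Poincare inequality. -/
theorem var_decay (hJ : IsCoupling J) {a : ℝ}
    (hP : ∀ f : (ι → Bool) → ℝ, a * var J h f ≤ ∑ i, site J h i f)
    (f : (ι → Bool) → ℝ) {t : ℝ} (ht : 0 ≤ t) :
    var J h (sg J h t f) ≤ Real.exp (-(2 * a * t)) * var J h f := by
  set G : ℝ → ℝ := fun s =>
    (mean J h (fun x => sg J h s f x ^ 2) - mean J h f ^ 2) * Real.exp (2 * a * s) with hG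
  have hvar : ∀ s, var J h (sg J h s f) = mean J h (fun x => sg J h s f x ^ 2) - mean J h f ^ 2 :=
    fun s => by rw [var_eq, Ent.mean_sg hJ]
  have hd : ∀ s, HasDerivAt G (2 * Real.exp (2 * a * s) *
      (a * var J h (sg J h s f) - ∑ i, site J h i (sg J h s f))) s := fun s => by
    have h1 : HasDerivAt (fun s => mean J h (fun x => sg J h s f x ^ 2))
        (mean J h (fun x => 2 * (sg J h s f x * lap J h (sg J h s f) x))) s := by
      refine HasDerivAt.fun_sum fun x _ => HasDerivAt.const_mul _ ?_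
      exact ((Ent.sg_hasDerivAt s f x).fun_pow 2).congr_deriv (by push_cast; ring)
    rw [mean_smul, mean_mul_lap hJ] at h1
    refine ((h1.sub_const _).mul (((hasDerivAt_id s).const_mul (2 * a)).exp)).congr_deriv ?_
    rw [hvar]
    simp only [id_eq, mul_one]
    ring
  have hanti : Antitone G := antitone_of_hasDerivAt_nonpos hd fun s =>
    mul_nonpos_of_nonneg_of_nonpos (by positivity) (sub_nonpos.2 (hP _))
  have h0 := hanti ht
  simp only [hG, mul_zero, Real.exp_zero, mul_one, ← hvar, Ent.sg_zero] at h0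
  rw [Real.exp_neg, ← div_eq_inv_mul, le_div_iff₀ (Real.exp_pos _)]
  exact h0

/-- A density of bounded entropy is close to one after a time governed by the gap alone. -/
theorem abs_le_of_entropy (hJ : IsCoupling J) {a E δ : ℝ} (hδ : 0 < δ) (hE : 0 ≤ E)
    (hP : ∀ f : (ι → Bool) → ℝ, a * var J h f ≤ ∑ i, site J h i f)
    {f : (ι → Bool) → ℝ} (hf : ∀ x, 0 < f x) (h1 : mean J h f = 1)
    (hent : mean J h (fun x => phi (f x)) ≤ E) {t : ℝ} (ht : 0 ≤ t) :
    mean J h (fun x => |sg J h t f x - 1|)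
      ≤ Real.exp ((E + 1) / δ / 2 - a * t) + 2 * δ := by
  set l := (E + 1) / δ with hl
  have hl0 : 0 < l := div_pos (by linarith) hδ
  set M := Real.exp l with hM
  have hM1 : 1 ≤ M := Real.one_le_exp hl0.le
  set φ : (ι → Bool) → ℝ := fun x => min (f x) M with hφ
  set ψ : (ι → Bool) → ℝ := fun x => f x - φ x with hψ
  have hψ0 : ∀ x, 0 ≤ ψ x := fun x => sub_nonneg.2 (min_le_left _ _)
  have hphi : ∀ x, -1 ≤ phi (f x) := fun x => by
    have := mul_le_mul_of_nonneg_left (Real.one_sub_inv_le_log_of_pos (hf x)) (hf x).le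
    rw [mul_sub, mul_one, mul_inv_cancel₀ (hf x).ne'] at this
    simp only [phi]
    linarith [(hf x).le]
  have hψl : ∀ x, l * ψ x ≤ phi (f x) + 1 := fun x => by
    rcases le_or_gt (f x) M with hx | hx
    · simp only [hψ, hφ, min_eq_left hx, sub_self, mul_zero]
      linarith [hphi x]
    · simp only [hψ, hφ, min_eq_right hx.le, phi]
      have hlog : l ≤ Real.log (f x) := by
        rw [← Real.log_exp l]; exact Real.log_le_log (Real.exp_pos _) hx.le
      nlinarith [mul_le_mul_of_nonneg_left hlog (hf x).le]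
  have hmψ : mean J h ψ ≤ δ := by
    have h2 := mean_le_mean (J := J) h (f := fun x => l * ψ x) hψl
    rw [mean_smul, mean_add, mean_const] at h2
    have h3 : l * δ = E + 1 := div_mul_cancel₀ _ hδ.ne'
    exact le_of_mul_le_mul_left (a := l) (by linarith) hl0
  have hsum : mean J h φ + mean J h ψ = 1 := by
    rw [← mean_add, ← h1]; exact congrArg _ (funext fun x => by simp [hψ])
  have hsplit : sg J h t f = sg J h t φ + sg J h t ψ := by
    rw [← Ent.sg_add]; exact congrArg _ (funext fun x => by simp [hψ])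
  set A : (ι → Bool) → ℝ := fun x => sg J h t φ x - mean J h φ with hA
  have hA2 : mean J h (fun x => A x ^ 2) ≤ Real.exp (l - 2 * a * t) := by
    have e : mean J h (fun x => A x ^ 2) = var J h (sg J h t φ) := by
      simp only [var, hA, Ent.mean_sg hJ]
    rw [e]
    refine (var_decay hJ hP φ ht).trans ?_
    have hφM : var J h φ ≤ M := by
      rw [var_eq]
      have h2 : mean J h (fun x => φ x ^ 2) ≤ M * mean J h f := by
        rw [← mean_smul]
        refine mean_le_mean h fun x => ?_
        rw [sq]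
        exact mul_le_mul (min_le_right _ _) (min_le_left _ _)
          (le_min (hf x).le (Real.exp_pos _).le) (Real.exp_pos _).le
      rw [h1, mul_one] at h2
      linarith [sq_nonneg (mean J h φ)]
    refine (mul_le_mul_of_nonneg_left hφM (Real.exp_pos _).le).trans (le_of_eq ?_)
    rw [hM, ← Real.exp_add]
    ring_nf
  have hA1 : mean J h (fun x => |A x|) ≤ Real.exp (l / 2 - a * t) := by
    refine (pow_le_pow_iff_left₀ (mean_nonneg h fun x => abs_nonneg _) (Real.exp_pos _).le
      two_ne_zero).1 ((mean_sq_le h _).trans ?_)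
    simp only [sq_abs]
    refine hA2.trans (le_of_eq ?_)
    rw [sq, ← Real.exp_add]
    ring_nf
  have hge : ∀ x, 0 ≤ sg J h t ψ x := fun x => Ent.sg_ge ht hψ0 x
  calc mean J h (fun x => |sg J h t f x - 1|)
      ≤ mean J h (fun x => |A x| + (sg J h t ψ x + mean J h ψ)) := by
        refine mean_le_mean h fun x => ?_
        rw [hsplit, Pi.add_apply, show sg J h t φ x + sg J h t ψ x - 1
          = A x + (sg J h t ψ x - mean J h ψ) by simp only [hA]; linarith]
        refine (abs_add_le _ _).trans (add_le_add le_rfl ?_)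
        refine (abs_sub _ _).trans (le_of_eq ?_)
        rw [abs_of_nonneg (hge x), abs_of_nonneg (mean_nonneg h hψ0)]
    _ ≤ _ := by
        rw [mean_add, mean_add, mean_const, Ent.mean_sg hJ]
        linarith

end Ising

variable {n : ℕ} {β : ℝ} {g : Edge n → ℝ}

/-- A lower bound on the gap gives the Poincare inequality of the Gibbs measure. -/
theorem poincare_of_le_gap {a : ℝ} (hgap : a ≤ gap n β g) (f : (Fin n → Bool) → ℝ) :
    a * var (skMat n β g) 0 f ≤ ∑ i, site (skMat n β g) 0 i f := by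
  have hs : 0 ≤ ∑ i, site (skMat n β g) 0 i f := Finset.sum_nonneg fun i _ => site_nonneg 0 i f
  rcases le_or_gt (var (skMat n β g) 0 f) 0 with hv | hv
  · have : var (skMat n β g) 0 f = 0 := le_antisymm hv (mean_nonneg 0 fun x => sq_nonneg _)
    rwa [this, mul_zero]
  have hb : BddBelow (Set.range fun f : {f : (Fin n → Bool) → ℝ // 0 < gibbsVar n β g f} =>
      dirichlet n β g f.1 / gibbsVar n β g f.1) := ⟨0, by
    rintro _ ⟨f, rfl⟩
    refine div_nonneg ?_ f.2.le
    rw [dirichlet_skMat]
    exact Finset.sum_nonneg fun i _ => site_nonneg 0 i f.1⟩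
  have hle := hgap.trans (ciInf_le hb ⟨f, by rwa [gibbsVar_skMat]⟩)
  simp only [gibbsVar_skMat, dirichlet_skMat] at hle
  rwa [le_div_iff₀ hv] at hle

/-- The constant in front of `log n`. -/
noncomputable def mixConst (C K a : ℝ) : ℝ := 3 * C + (10 * (K + 2) / 2 + 2) / a

theorem mixConst_pos {C K a : ℝ} (hC : 0 < C) (hK : 0 ≤ K) (ha : 0 < a) : 0 < mixConst C K a := by
  unfold mixConst; positivity

/-- An entropy bound with any fixed defect and a gap give mixing in logarithmic time. -/
theorem tv_of_defect_gap {C K a : ℝ} (hC : 0 < C) (hK : 0 ≤ K) (ha : 0 < a) (hn : 16 ≤ n)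
    (hτ : ∀ i j, |skMat n β g i j| ≤ 1)
    (hT : Beyond.DefectLSI (skMat n β g) 0 C K) (hgap : a ≤ gap n β g)
    {t : ℝ} (ht : mixConst C K a * Real.log n ≤ t) (x : Fin n → Bool) :
    tvDist n β g t x ≤ 1 / 4 := by
  set J := skMat n β g with hJdef
  have hJ : IsCoupling J := isCoupling_skMat n β g
  have hn' : (16 : ℝ) ≤ n := by exact_mod_cast hn
  have hlog : 1 ≤ Real.log n := by
    rw [Real.le_log_iff_exp_le (by linarith)]
    linarith [Real.exp_one_lt_d9]
  set t₁ := 3 * C * Real.log n with ht₁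
  set T₂ := (10 * (K + 2) / 2 + 2) / a with hT₂
  have hT₂0 : 0 ≤ T₂ := by rw [hT₂]; positivity
  have ht₁0 : 0 ≤ t₁ := by positivity
  set t₂ := t - t₁ with ht₂
  have ht₂le : T₂ ≤ t₂ := by
    have h1 := mul_le_mul_of_nonneg_left hlog hT₂0
    simp only [mixConst, ← hT₂] at ht
    rw [ht₂, ht₁]
    linarith
  have ht₂0 : 0 ≤ t₂ := hT₂0.trans ht₂le
  have hT' : ∀ f : (Fin n → Bool) → ℝ, (∀ y, 0 < f y) → mean J 0 f = 1 →
      ent J 0 f ≤ C * ∑ j, entAt J 0 j f + K := fun f hf h1 => by
    simpa [h1] using hT f hf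
  rw [tvDist_skMat, ← hJdef]
  set P := NormedSpace.exp (t • lapMat J 0) with hP
  set D := ∑ y, |P x y - weight J 0 y| with hD
  have hw := weight_pos (J := J) 0 x
  set w := weight J 0 x with hwdef
  set L := Real.log (1 / w) with hL
  set e : ℝ := 1 / 10 with he
  set u : (Fin n → Bool) → ℝ := (1 - e) • Pi.single x w⁻¹ + e • fun _ => (1 : ℝ) with hu
  have huy : ∀ y, u y = (1 - e) * (if y = x then w⁻¹ else 0) + e := fun y => by
    simp [hu, Pi.single_apply]
  have hup : ∀ y, 0 < u y := fun y => by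
    rw [huy]
    exact add_pos_of_nonneg_of_pos (mul_nonneg (by norm_num [he]) (by split_ifs <;> positivity))
      (by norm_num [he])
  have hum : mean J 0 u = 1 := by
    rw [show u = fun y => _ from funext huy, mean_add, mean_const, mean_smul]
    simp [mean, ← hwdef, hw.ne']
  have hL0 : 0 ≤ L := Real.log_nonneg (by
    rw [le_div_iff₀ hw, one_mul, hwdef, ← sum_weight (J := J) 0]
    exact Finset.single_le_sum (fun y _ => (weight_pos 0 y).le) (mem_univ x))
  have hent : mean J 0 (fun y => phi (u y)) ≤ L := by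
    refine le_trans (mean_le_mean 0 (g := fun y => (1 - e) * phi (if y = x then w⁻¹ else 0))
      fun y => ?_) ?_
    · rw [huy]
      have := Real.convexOn_mul_log.2 (x := if y = x then w⁻¹ else 0)
        (by show (0 : ℝ) ≤ _; split_ifs <;> positivity) (y := 1)
        (show (1 : ℝ) ∈ Set.Ici 0 from zero_le_one' ℝ)
        (show (0 : ℝ) ≤ 1 - e by norm_num [he]) (show (0 : ℝ) ≤ e by norm_num [he]) (by ring)
      simpa [phi] using this
    · rw [mean_smul]
      have : mean J 0 (fun y => phi (if y = x then w⁻¹ else 0)) = L := by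
        simp [mean, phi, hL, apply_ite, ← hwdef, hw.ne']
      rw [this]
      exact mul_le_of_le_one_left hL0 (by norm_num [he])
  have hsmall : Real.exp (-t₁ / C) * L ≤ 1 := by
    have hw2 : L ≤ (n : ℝ) ^ 3 := by
      refine (log_inv_weight_le hτ x).trans ?_
      have hl2 : Real.log 2 ≤ 1 := by
        linarith [Real.log_le_sub_one_of_pos (show (0 : ℝ) < 2 by norm_num)]
      nlinarith [mul_le_mul_of_nonneg_left hl2 (Nat.cast_nonneg (α := ℝ) n)]
    have hexp : Real.exp (-t₁ / C) = ((n : ℝ) ^ 3)⁻¹ := by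
      rw [ht₁, show -(3 * C * Real.log n) / C = -((3 : ℕ) * Real.log n) by field_simp; norm_num,
        Real.exp_neg, Real.exp_nat_mul, Real.exp_log (by linarith)]
    rw [hexp, inv_mul_le_iff₀ (by positivity)]
    simpa using hw2
  set f₁ := sg J 0 t₁ u with hf₁
  obtain ⟨z, -, hz⟩ := Finset.exists_min_image Finset.univ u Finset.univ_nonempty
  have hpos : ∀ y, 0 < f₁ y := fun y =>
    (hup z).trans_le (Ent.sg_ge ht₁0 (fun w => hz w (Finset.mem_univ w)) y)
  have hm₁ : mean J 0 f₁ = 1 := by rw [hf₁, Ent.mean_sg hJ, hum]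
  have hent₁ : mean J 0 (fun y => phi (f₁ y)) ≤ K + 1 := by
    refine (Beyond.entropy_decay_defect hJ hC hK hT' hup hum ht₁0).trans ?_
    linarith [(mul_le_mul_of_nonneg_left hent (Real.exp_pos (-t₁ / C)).le).trans hsmall]
  have habs := abs_le_of_entropy hJ (a := a) (δ := 1 / 10) (by norm_num) (by linarith)
    (poincare_of_le_gap hgap) hpos hm₁ hent₁ ht₂0
  have htail : Real.exp ((K + 1 + 1) / (1 / 10) / 2 - a * t₂) ≤ 1 / 5 := by
    have h1 : 10 * (K + 2) / 2 + 2 ≤ a * t₂ := by
      rw [← mul_div_cancel₀ (10 * (K + 2) / 2 + 2) ha.ne']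
      exact mul_le_mul_of_nonneg_left ht₂le ha.le
    have h2 : Real.exp (-2) ≤ 1 / 5 := by
      rw [Real.exp_neg, one_div]
      refine inv_anti₀ (by norm_num) ?_
      rw [show (2 : ℝ) = 1 + 1 by norm_num, Real.exp_add]
      nlinarith [Real.exp_one_gt_d9]
    refine (Real.exp_le_exp.2 ?_).trans h2
    rw [show (K + 1 + 1) / (1 / 10) / 2 = 10 * (K + 2) / 2 by ring]
    linarith
  rw [hf₁, sg_comp, show t₂ + t₁ = t by rw [ht₂]; ring] at habs
  have hft : ∀ y, sg J 0 t u y - 1 = (1 - e) * ((P x y - weight J 0 y) / weight J 0 y) := fun y => by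
    have e' : (Pi.single x w⁻¹ : (Fin n → Bool) → ℝ) = w⁻¹ • Pi.single x 1 := by
      rw [← Pi.single_smul]; simp
    rw [hu, Ent.sg_add, Ent.sg_smul, Ent.sg_smul, Ent.sg_one, e', Ent.sg_smul]
    simp only [Pi.add_apply, Pi.smul_apply, smul_eq_mul, Ent.sg_single]
    have hy := (weight_pos (J := J) 0 y).ne'
    have := Ent.weight_mul_exp_symm (h := 0) hJ t x y
    rw [hP]
    field_simp
    rw [hwdef] at *
    linear_combination (1 - e) * this
  have heq : mean J 0 (fun y => |sg J 0 t u y - 1|) = (1 - e) * D := by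
    simp only [mean, hft, abs_mul, abs_div, abs_of_pos (show (0:ℝ) < 1 - e by norm_num [he]),
      abs_of_pos (weight_pos (J := J) 0 _), hD, Finset.mul_sum]
    exact Finset.sum_congr rfl fun y _ => by field_simp [(weight_pos (J := J) 0 y).ne']
  rw [heq] at habs
  rw [he] at habs
  linarith

/-- Packaged: one constant for all sizes and disorders. -/
theorem mixing_of_defect_gap {C K a : ℝ} (hC : 0 < C) (hK : 0 ≤ K) (ha : 0 < a) :
    ∃ C' : ℝ, 0 < C' ∧ ∀ (n : ℕ) (β : ℝ) (g : Edge n → ℝ), 16 ≤ n →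
      (∀ i j, |skMat n β g i j| ≤ 1) → Beyond.DefectLSI (skMat n β g) 0 C K → a ≤ gap n β g →
      ∀ t, C' * Real.log n ≤ t → ∀ x, tvDist n β g t x ≤ 1 / 4 :=
  ⟨mixConst C K a, mixConst_pos hC hK ha, fun _ _ _ hn hτ hT hgap _ ht x =>
    tv_of_defect_gap hC hK ha hn hτ hT hgap ht x⟩

end Vale.Agent.P150.Full.E
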