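import Vale.Agent.P150.Full.T.Pins

/-!
# P150, from no traps to fast mixing for every `β < 1`: the interfaces of the modules

Statements only; see `notes/P150/lead-partE-plan.md`. The planted model is the disorder shifted by
`β / √n` with the configuration of all ones; the channel is `A A^T = J + c` run from time `0` to `β`.
-/

open Finset MeasureTheory Real
open Vale.Agent.P150.Fast
open Vale.Agent.P150.Beyond Vale.Agent.P150.Beyond.Stability
open Vale.Agent.P150.Full.T (Whp Level RespBound coupMat resp respK)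
open Vale.Agent.P150.Fast.Ent (ent entAt lin mag)

namespace Vale.Agent.P150.Full.E

variable {n : ℕ}

/-! ## The planted model and its replica-symmetric value -/

/-- The disorder with the all-ones configuration planted. -/
noncomputable def plantG (β : ℝ) (g : Edge n → ℝ) (e : Edge n) : ℝ := β / √n + g e

/-- The observed field of the planted configuration, with white noise `z` and a perturbation `w`. -/
noncomputable def plantY (σ : ℝ) (z w : Fin n → ℝ) (i : Fin n) : ℝ := σ + √σ * z i + w i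

/-- `E tanh (r + √r Z)`. -/
noncomputable def rsPhi (r : ℝ) : ℝ := ∫ z, Real.tanh (r + √r * z) ∂std

/-- The replica-symmetric value at overlap `M`, relative to the uniform measure. -/
noncomputable def rsVal (β σ M : ℝ) : ℝ :=
  (∫ z, Real.log (Real.cosh (σ + β ^ 2 * M + √(σ + β ^ 2 * M) * z)) ∂std) - β ^ 2 * M ^ 2 / 2 +
    β ^ 2 * (1 - M) ^ 2 / 4

/-- The logarithm of the partition function, relative to the uniform measure. -/
noncomputable def pressure (θ : ℝ) (g : Edge n → ℝ) (y : Fin n → ℝ) : ℝ :=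
  Real.log (∑ x, Real.exp (ham (skMat n θ g) y x)) - n * Real.log 2

open Classical in
/-- The Gibbs mass of the overlaps with the all-ones configuration away from `q`. -/
noncomputable def overlapTail (θ : ℝ) (g : Edge n → ℝ) (y : Fin n → ℝ) (q η : ℝ) : ℝ :=
  mean (skMat n θ g) y fun x => if η * n < |(∑ i, spin (x i)) - q * n| then 1 else 0

/-- P1 (planted overlap): outside an exponentially small planted event the overlap with the planted
configuration is near the replica-symmetric one and the pressure is at least the replica-symmetric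
value, also for nearby temperatures and fields. -/
def PlantedOverlap : Prop :=
  ∀ β : ℝ, 0 < β → β < 1 → ∀ η : ℝ, 0 < η → ∀ T₁ : ℝ, ∃ ε : ℝ, 0 < ε ∧ ∃ r : ℝ, 0 < r ∧
    ∃ n₀ : ℕ, ∀ n ≥ n₀, ∀ σ : ℝ, 0 ≤ σ → σ ≤ T₁ → ∀ q : ℝ, 0 ≤ q → q ≤ 1 →
      q = rsPhi (σ + β ^ 2 * q) →
      ((stdPi (Edge n)).prod (stdPi (Fin n))).real
        {p | ∃ (θ : ℝ) (w : Fin n → ℝ), β - ε ≤ θ ∧ θ ≤ β ∧ 0 ≤ θ ∧ ∑ i, w i ^ 2 ≤ ε * n ∧
          (Real.exp (-(r * n)) < overlapTail θ (plantG β p.1) (plantY σ p.2 w) q η ∨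
            pressure θ (plantG β p.1) (plantY σ p.2 w) < n * (rsVal β σ q - η))} ≤
        Real.exp (-(r * n))

/-- The margin on the ball of squared radius `r n` around `m`. -/
def BallMargin (θ : ℝ) (g : Edge n → ℝ) (γ r : ℝ) (m : Fin n → ℝ) : Prop :=
  ∀ x : Fin n → ℝ, (∀ i, |x i| < 1) → ∑ i, (x i - m i) ^ 2 ≤ r * n →
    ∀ v, γ * ∑ i, v i ^ 2 ≤ Stability.hess θ g x v

/-- P2 (planted margin): outside an exponentially small planted event every near maximiser of the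
TAP value with replica-symmetric overlaps has a margin on a ball. -/
def PlantedMargin : Prop :=
  ∀ β : ℝ, 0 < β → β < 1 → ∀ T₁ : ℝ, ∃ γ : ℝ, 0 < γ ∧ ∃ r : ℝ, 0 < r ∧ ∃ ε : ℝ, 0 < ε ∧
    ∃ κ : ℝ, 0 < κ ∧ ∃ n₀ : ℕ, ∀ n ≥ n₀, ∀ σ : ℝ, 0 ≤ σ → σ ≤ T₁ → ∀ q : ℝ, 0 ≤ q → q ≤ 1 →
      q = rsPhi (σ + β ^ 2 * q) →
      ((stdPi (Edge n)).prod (stdPi (Fin n))).real
        {p | ∃ (θ : ℝ) (w m : Fin n → ℝ), β - ε ≤ θ ∧ θ ≤ β ∧ 0 ≤ θ ∧ ∑ i, w i ^ 2 ≤ ε * n ∧
          (∀ i, |m i| ≤ 1) ∧ |qOf m - q| ≤ ε ∧ |(∑ i, m i) - q * n| ≤ ε * n ∧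
          tapField θ (plantG β p.1) (plantY σ p.2 w) m ≤ -((n : ℝ) * (rsVal β σ q - ε)) ∧
          ¬BallMargin θ (plantG β p.1) γ r m} ≤
        Real.exp (-(κ * n))

/-! ## The channel from the zero-field measure -/

/-- The Gibbs measure at zero field. -/
noncomputable def gibbs0 (β : ℝ) (g : Edge n → ℝ) : (Fin n → Bool) → ℝ := weight (skMat n β g) 0

/-- The observations of mass at most `e` cover the failures of `P`. -/
def TypicalMass (β : ℝ) (g : Edge n → ℝ) (A : Fin n → Fin n → ℝ) (t e : ℝ)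
    (P : (Fin n → ℝ) → Prop) : Prop :=
  ∃ B : Set (Fin n → ℝ), MeasurableSet B ∧
    chE (gibbs0 β g) A t (B.indicator fun _ => 1) ≤ e ∧ ∀ Y, Y ∉ B → P Y

/-- A critical point with a margin tracks the magnetisations, robustly in the field. -/
def SafeAt (θ : ℝ) (g : Edge n → ℝ) (γ r ε : ℝ) (y : Fin n → ℝ) : Prop :=
  ∀ w : Fin n → ℝ, ∑ i, w i ^ 2 ≤ ε * n →
    let y' := fun i => y i + w i
    ∑ i, (mag (skMat n θ g) y' i - mag (skMat n θ g) y i) ^ 2 ≤ r / 64 * n ∧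
      BallMargin θ g γ r (mag (skMat n θ g) y') ∧
      ∃ h : Fin n → ℝ, (∀ i, critRes θ g y' h i = 0) ∧
        ∑ i, (Real.tanh (h i) - mag (skMat n θ g) y' i) ^ 2 ≤ r / 64 * n

/-- P4: along the channel the fields are safe outside exponentially small mass. -/
def TypicalSafe : Prop :=
  ∀ β : ℝ, 0 < β → β < 1 → ∃ γ : ℝ, 0 < γ ∧ ∃ r : ℝ, 0 < r ∧ ∃ ε : ℝ, 0 < ε ∧ ∃ c : ℝ, 4 ≤ c ∧
    ∃ κ : ℝ, 0 < κ ∧ ∀ p : ℕ, Whp fun n g =>
      ∀ A : Fin n → Fin n → ℝ, IsRoot (skMat n 1 g) c 3 A → ∀ k ≤ n ^ p,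
        TypicalMass β g A (β * k / (n : ℝ) ^ p) (Real.exp (-(κ * n))) fun Y =>
          SafeAt (β - β * k / (n : ℝ) ^ p) g γ r ε (chField A 0 Y)

/-- (U), sharp: the diagonal law of the inverse Hessian with an error of order one. -/
def RespSharp : Prop :=
  ∀ β : ℝ, 0 ≤ β → β < 1 → ∀ γ : ℝ, 0 < γ → ∀ c : ℝ, 3 ≤ c → ∃ R : ℝ, Whp fun n g =>
    ∀ θ : ℝ, 0 ≤ θ → θ ≤ β → ∀ x : Fin n → ℝ,
      (∀ i, |x i| < 1) → (∀ v, γ * ∑ i, v i ^ 2 ≤ Stability.hess θ g x v) →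
        ∑ i, (respK c θ g x i i / (1 - x i ^ 2) - (1 - x i ^ 2) *
          (c + 2 * θ * (1 - qOf x) + θ ^ 2 / n * Matrix.trace (respK c θ g x))) ^ 2 ≤ R

/-- At a good field entropy dominates the change of the magnetisations up to a constant, and the
covariance is bounded. -/
def GoodField (θ : ℝ) (g : Edge n → ℝ) (K : ℝ) (y : Fin n → ℝ) : Prop :=
  (∀ f : (Fin n → Bool) → ℝ, (∀ x, 0 < f x) → ∑ i, magShift (skMat n θ g) y f i ^ 2 ≤
      K * mean (skMat n θ g) y f * (ent (skMat n θ g) y f + mean (skMat n θ g) y f)) ∧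
    ∀ v : Fin n → ℝ, var (skMat n θ g) y (lin v) ≤ K * ∑ i, v i ^ 2

/-- Along a polynomial grid of the channel the fields are good outside exponentially small mass. -/
def GoodChannel : Prop :=
  ∀ β : ℝ, 0 < β → β < 1 → ∃ c : ℝ, 4 ≤ c ∧ ∃ κ : ℝ, 0 < κ ∧ ∃ K : ℝ, 0 < K ∧ ∃ d : ℕ, 4 ≤ d ∧
    Whp fun n g => ∀ A : Fin n → Fin n → ℝ, IsRoot (skMat n 1 g) c 3 A → ∀ k ≤ n ^ d,
      TypicalMass β g A (β * k / (n : ℝ) ^ d) (Real.exp (-(κ * n))) fun Y =>
        GoodField (β - β * k / (n : ℝ) ^ d) g K (chField A 0 Y)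

/-- E5: the residual identity along the channel, stopped at unsafe fields. -/
def GoodFromSafe : Prop := RespSharp → TypicalSafe → GoodChannel

/-- The upper bounds: gap and mixing. -/
def FastUpper : Prop :=
  ∀ β : ℝ, 0 < β → β < 1 → ∃ a : ℝ, 0 < a ∧ ∃ C : ℝ, 0 < C ∧ Whp fun n g =>
    a ≤ gap n β g ∧ ∀ t, C * Real.log n ≤ t → ∀ x, tvDist n β g t x ≤ 1 / 4

/-- No traps, through failure sets (`T.noTrap_whp`). -/
def NoTrapWhp : Prop :=
  ∀ β : ℝ, 0 ≤ β → β < 1 → ∀ ε : ℝ, 0 < ε → ∃ a : ℝ, 0 < a ∧ Whp fun n g =>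
    ∀ ν : (Fin n → Bool) → ℝ, IsLaw ν → fisher β g 0 ν ≤ a * n → relEnt β g 0 ν ≤ ε * n

/-- E6: the channel with a rare bad set, absorbed by no traps. -/
def FastFromGood : Prop := GoodChannel → NoTrapWhp → FastUpper

/-- The modules give the upper bounds. -/
theorem fastUpper_of_modules (hT : NoTrapWhp) (hU : RespSharp) (hS : TypicalSafe) (h5 : GoodFromSafe)
    (h6 : FastFromGood) : FastUpper :=
  h6 (h5 hU hS) hT

end Vale.Agent.P150.Full.E
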