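import Vale.Agent.P150.Beyond.Planted.Integrals
import Vale.Agent.P150.Full.ScalarOffset

/-!
# P150, planted side: the scalar field `r + √r g`

`phi r = E tanh (r + √r g)`, the Nishimori identity, `phi' = E (1 - tanh²)²`, and the moments used by
the margin.
-/

open MeasureTheory ProbabilityTheory Real Filter Topology
open Vale.Agent.P150.Beyond.Planted Vale.Agent.P150.Full.ScalarB

namespace Vale.Agent.P150.Full.E

/-- The average of `f` over the field `r + √r g`. -/
noncomputable def fieldE (r : ℝ) (f : ℝ → ℝ) : ℝ := ∫ z, f (r + √r * z) ∂std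

/-- The scalar overlap. -/
noncomputable def phi (r : ℝ) : ℝ := fieldE r tanh

/-- `1 - tanh²`. -/
noncomputable def dd (x : ℝ) : ℝ := 1 - tanh x ^ 2

/-- `d = E D`. -/
noncomputable def dMom (r : ℝ) : ℝ := fieldE r dd

/-- `e = E D²`. -/
noncomputable def eMom (r : ℝ) : ℝ := fieldE r fun x => dd x ^ 2

/-- `u = d - e`. -/
noncomputable def uMom (r : ℝ) : ℝ := dMom r - eMom r

/-- `w = 2 e - d`. -/
noncomputable def wMom (r : ℝ) : ℝ := 2 * eMom r - dMom r

theorem dd_nonneg (x : ℝ) : 0 ≤ dd x := sub_nonneg.2 (tanh_sq_le_one x)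

theorem dd_le_one (x : ℝ) : dd x ≤ 1 := sub_le_self _ (sq_nonneg _)

theorem abs_dd_le (x : ℝ) : |dd x| ≤ 1 := by
  rw [abs_of_nonneg (dd_nonneg x)]; exact dd_le_one x

theorem continuous_dd : Continuous dd := by
  have := continuous_tanh'
  unfold dd; fun_prop

theorem hasDerivAt_dd (x : ℝ) : HasDerivAt dd (-(2 * tanh x * dd x)) x := by
  refine (((hasDerivAt_tanh' x).pow 2).const_sub 1).congr_deriv ?_
  simp [dd]

theorem integrable_field {f : ℝ → ℝ} (hf : Continuous f) {B : ℝ}
    (hb : ∀ x, |f x| ≤ B * (1 + |x|)) (a s : ℝ) : Integrable (fun z => f (a + s * z)) std := by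
  have hB : 0 ≤ B := by
    have := (abs_nonneg _).trans (hb 0)
    simpa using this
  refine (((integrable_const (1 + |a|)).add (integrable_id_std.abs.const_mul |s|)).const_mul B).mono'
    (by fun_prop) (Eventually.of_forall fun z => ?_)
  rw [norm_eq_abs]
  refine (hb _).trans (mul_le_mul_of_nonneg_left ?_ hB)
  simp only [Pi.add_apply]
  have := abs_add_le a (s * z)
  rw [abs_mul] at this
  linarith

theorem bdd_linear {f : ℝ → ℝ} {B : ℝ} (hb : ∀ x, |f x| ≤ B) : ∀ x, |f x| ≤ B * (1 + |x|) :=
  fun x => (hb x).trans (le_mul_of_one_le_right ((abs_nonneg _).trans (hb x))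
    (le_add_of_nonneg_right (abs_nonneg x)))

theorem continuous_fieldE {f : ℝ → ℝ} (hf : Continuous f) {B : ℝ}
    (hb : ∀ x, |f x| ≤ B * (1 + |x|)) : Continuous fun r => fieldE r f := by
  have hB : 0 ≤ B := by
    have := (abs_nonneg _).trans (hb 0)
    simpa using this
  refine continuous_iff_continuousAt.2 fun r₀ => ?_
  refine continuousAt_of_dominated
    (bound := fun z => B * (1 + (|r₀| + 1) + √(|r₀| + 1) * |z|))
    (Eventually.of_forall fun r => by fun_prop) ?_ ?_
    (Eventually.of_forall fun z => by fun_prop)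
  · filter_upwards [Metric.ball_mem_nhds r₀ one_pos] with r hr
    refine Eventually.of_forall fun z => ?_
    have hr' : |r| ≤ |r₀| + 1 := by
      rw [Metric.mem_ball, Real.dist_eq] at hr
      linarith [abs_sub_abs_le_abs_sub r r₀]
    rw [norm_eq_abs]
    refine (hb _).trans (mul_le_mul_of_nonneg_left ?_ hB)
    have h1 := abs_add_le r (√r * z)
    have h2 : √r ≤ √(|r₀| + 1) := sqrt_le_sqrt ((le_abs_self r).trans hr')
    rw [abs_mul, abs_of_nonneg (sqrt_nonneg r)] at h1
    linarith [mul_le_mul_of_nonneg_right h2 (abs_nonneg z)]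
  · exact ((integrable_const _).add (integrable_id_std.abs.const_mul _)).const_mul _

theorem integral_odd {G : ℝ → ℝ} (hG : Continuous G) (hodd : ∀ x, G (-x) = -G x) (s : ℝ) :
    ∫ z, G (s * z) ∂std = 0 := by
  have h : ∫ z, G (s * z) ∂std = ∫ z, G (s * -z) ∂std := by
    simp only [std]
    conv_lhs => rw [← neg_zero (G := ℝ), ← gaussianReal_map_neg]
    rw [integral_map (by fun_prop) (by fun_prop)]
  have h2 : ∫ z, G (s * -z) ∂std = -∫ z, G (s * z) ∂std := by
    simp [mul_neg, hodd, integral_neg]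
  linarith

theorem fieldE_shift {r : ℝ} (hr : 0 ≤ r) (F : ℝ → ℝ) :
    fieldE r F = ∫ z, F (√r * z) * exp (√r * z - r / 2) ∂std := by
  have h := shift_std (fun x => F (√r * x)) √r
  rw [sq_sqrt hr] at h
  rw [← h, fieldE]
  refine integral_congr_ae (Eventually.of_forall fun z => ?_)
  simp only
  rw [mul_add, mul_self_sqrt hr, add_comm]

/-- **Nishimori**: for odd `F`, `E tanh(H) F(H) = E F(H)` at `H = r + √r g`. -/
theorem nishimori {r : ℝ} (hr : 0 ≤ r) {F : ℝ → ℝ} (hF : Continuous F) {B : ℝ}
    (hb : ∀ x, |F x| ≤ B) (hodd : ∀ x, F (-x) = -F x) :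
    fieldE r (fun x => tanh x * F x) = fieldE r F := by
  have hct := continuous_tanh'
  have hb' : ∀ x, |tanh x * F x| ≤ B := fun x => by
    rw [abs_mul]
    exact (mul_le_of_le_one_left (abs_nonneg _) (abs_tanh_le_one' x)).trans (hb x)
  have hi1 := integrable_field hF (bdd_linear hb) r √r
  have hi2 : Integrable (fun z => tanh (r + √r * z) * F (r + √r * z)) std :=
    integrable_field (hct.mul hF) (bdd_linear hb') r √r
  have hzero : fieldE r (fun x => F x - tanh x * F x) = 0 := by
    rw [fieldE_shift hr]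
    have : (fun z => (F (√r * z) - tanh (√r * z) * F (√r * z)) * exp (√r * z - r / 2))
        = fun z => exp (-(r / 2)) * (F (√r * z) / cosh (√r * z)) := by
      funext z
      set x := √r * z
      rw [show exp (x - r / 2) = exp (-(r / 2)) * (cosh x + sinh x) by
        rw [cosh_add_sinh, ← exp_add]; ring_nf]
      rw [tanh_eq_sinh_div_cosh]
      have := cosh_sq x
      field_simp
      linear_combination (F x) * this
    rw [this, integral_const_mul, integral_odd (G := fun x => F x / cosh x)
      (hF.div continuous_cosh fun x => (cosh_pos x).ne')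
      (fun x => by rw [hodd, cosh_neg, neg_div]), mul_zero]
  simp only [fieldE] at hzero ⊢
  rw [integral_sub hi1 hi2] at hzero
  linarith

/-- Differentiation in `r`, by Gaussian integration by parts. -/
theorem hasDerivAt_fieldE {r : ℝ} (hr : 0 < r) {f f' f'' : ℝ → ℝ} (hf : ∀ x, HasDerivAt f (f' x) x)
    (hf' : ∀ x, HasDerivAt f' (f'' x) x) (hc : Continuous f'') {B A : ℝ}
    (hb0 : ∀ x, |f x| ≤ A * (1 + |x|)) (hb1 : ∀ x, |f' x| ≤ B) (hb2 : ∀ x, |f'' x| ≤ B) :
    HasDerivAt (fun r => fieldE r f) (fieldE r f' + fieldE r f'' / 2) r := by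
  have hB : 0 ≤ B := (abs_nonneg _).trans (hb1 0)
  have hc0 : Continuous f := continuous_iff_continuousAt.2 fun x => (hf x).continuousAt
  have hc1 : Continuous f' := continuous_iff_continuousAt.2 fun x => (hf' x).continuousAt
  set F' := fun (s z : ℝ) => f' (s + √s * z) * (1 + z / (2 * √s))
  have key := hasDerivAt_integral_of_dominated_loc_of_deriv_le
    (μ := std) (F := fun s z => f (s + √s * z)) (F' := F') (s := Set.Ioi (r / 2)) (x₀ := r)
    (bound := fun z => B * (1 + |z| / (2 * √(r / 2))))
    (Ioi_mem_nhds (by linarith)) (Eventually.of_forall fun s => by fun_prop)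
    (integrable_field hc0 hb0 r √r) (by fun_prop)
    (Eventually.of_forall fun z s hs => by
      have hs0 : r / 2 < s := hs
      rw [norm_eq_abs, abs_mul]
      refine mul_le_mul (hb1 _) ?_ (abs_nonneg _) hB
      refine (abs_add_le _ _).trans (add_le_add (le_of_eq abs_one) ?_)
      rw [abs_div, abs_of_nonneg (by positivity : 0 ≤ 2 * √s)]
      gcongr)
    (((integrable_const _).add (integrable_id_std.abs.div_const _)).const_mul _)
    (Eventually.of_forall fun z s hs => by
      have hs0 : 0 < s := lt_trans (by linarith) (Set.mem_Ioi.1 hs)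
      have hd : HasDerivAt (fun y => y + √y * z) (1 + 1 / (2 * √s) * z) s :=
        (hasDerivAt_id s).add ((hasDerivAt_sqrt hs0.ne').mul_const z)
      refine ((hf _).comp s hd).congr_deriv ?_
      simp only [F']
      ring)
  refine key.2.congr_deriv ?_
  have i1 := integrable_field hc1 (bdd_linear hb1) r √r
  have i2 : Integrable (fun z => z * f' (r + √r * z)) std :=
    integrable_id_std.mul_bdd i1.1 (Eventually.of_forall fun z => hb1 _)
  have hst := stein (φ := fun z => f' (r + √r * z)) (φ' := fun z => √r * f'' (r + √r * z))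
    (fun z => by
      have hd : HasDerivAt (fun y => r + √r * y) √r z := by
        simpa using ((hasDerivAt_id z).const_mul √r).const_add r
      refine ((hf' _).comp z hd).congr_deriv ?_
      ring)
    i1 ((integrable_field hc (bdd_linear hb2) r √r).const_mul _) i2
  rw [integral_const_mul] at hst
  have e : (fun z => F' r z)
      = fun z => f' (r + √r * z) + (1 / (2 * √r)) * (z * f' (r + √r * z)) := by
    funext z; simp only [F']; ring
  rw [e, integral_add i1 (i2.const_mul _), integral_const_mul, hst, fieldE, fieldE]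
  field_simp [(sqrt_pos.2 hr).ne']

theorem fieldE_const (r c : ℝ) : fieldE r (fun _ => c) = c := by simp [fieldE]

theorem fieldE_mono {f g : ℝ → ℝ} (hf : Continuous f) (hg : Continuous g) {A B : ℝ}
    (hfb : ∀ x, |f x| ≤ A) (hgb : ∀ x, |g x| ≤ B) (h : ∀ x, f x ≤ g x) (r : ℝ) :
    fieldE r f ≤ fieldE r g :=
  integral_mono (integrable_field hf (bdd_linear hfb) r √r)
    (integrable_field hg (bdd_linear hgb) r √r) fun _ => h _

theorem abs_dd_sq_le (x : ℝ) : |dd x ^ 2| ≤ 1 := by
  rw [abs_pow]; exact pow_le_one₀ (abs_nonneg _) (abs_dd_le x)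

theorem continuous_phi : Continuous phi :=
  continuous_fieldE continuous_tanh' (bdd_linear abs_tanh_le_one')

theorem continuous_eMom : Continuous eMom :=
  continuous_fieldE (continuous_dd.pow 2) (bdd_linear abs_dd_sq_le)

/-- `E tanh = E tanh²`, so `E D = 1 - phi`. -/
theorem dMom_eq {r : ℝ} (hr : 0 ≤ r) : dMom r = 1 - phi r := by
  have h := nishimori hr continuous_tanh' abs_tanh_le_one' tanh_neg
  have hi : Integrable (fun z => tanh (r + √r * z) * tanh (r + √r * z)) std :=
    integrable_field (continuous_tanh'.mul continuous_tanh') (B := 1)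
      (bdd_linear fun x => by
        show |tanh x * tanh x| ≤ 1
        rw [← sq, abs_pow, sq_abs]; exact tanh_sq_le_one x) r √r
  rw [phi, ← h]
  simp only [dMom, fieldE, dd, sq]
  rw [integral_sub (integrable_const _) hi]
  simp

theorem phi_nonneg {r : ℝ} (hr : 0 ≤ r) : 0 ≤ phi r := by
  have h : dMom r ≤ fieldE r fun _ => (1 : ℝ) :=
    fieldE_mono continuous_dd continuous_const abs_dd_le (B := 1) (by simp) dd_le_one r
  rw [fieldE_const, dMom_eq hr] at h
  linarith

theorem dMom_mem (r : ℝ) : 0 ≤ dMom r ∧ dMom r ≤ 1 := by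
  refine ⟨integral_nonneg fun z => dd_nonneg _, ?_⟩
  have h : dMom r ≤ fieldE r fun _ => (1 : ℝ) :=
    fieldE_mono continuous_dd continuous_const abs_dd_le (B := 1) (by simp) dd_le_one r
  rwa [fieldE_const] at h

theorem phi_le_one {r : ℝ} (hr : 0 ≤ r) : phi r ≤ 1 := by
  linarith [dMom_mem r, dMom_eq hr]

theorem eMom_nonneg (r : ℝ) : 0 ≤ eMom r := integral_nonneg fun _ => sq_nonneg _

theorem eMom_le_dMom (r : ℝ) : eMom r ≤ dMom r :=
  fieldE_mono (continuous_dd.pow 2) continuous_dd abs_dd_sq_le abs_dd_le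
    (fun x => show dd x ^ 2 ≤ dd x by nlinarith [dd_nonneg x, dd_le_one x]) r

theorem eMom_le_one (r : ℝ) : eMom r ≤ 1 := (eMom_le_dMom r).trans (dMom_mem r).2

theorem wMom_le_eMom (r : ℝ) : wMom r ≤ eMom r := by
  unfold wMom; linarith [eMom_le_dMom r]

theorem uMom_nonneg (r : ℝ) : 0 ≤ uMom r := sub_nonneg.2 (eMom_le_dMom r)

theorem uMom_eq (r : ℝ) : uMom r = fieldE r fun x => tanh x ^ 2 * dd x := by
  have i1 := integrable_field continuous_dd (bdd_linear abs_dd_le) r √r
  have i2 : Integrable (fun z => dd (r + √r * z) ^ 2) std :=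
    integrable_field (continuous_dd.pow 2) (bdd_linear abs_dd_sq_le) r √r
  simp only [uMom, dMom, eMom, fieldE]
  rw [← integral_sub i1 i2]
  refine integral_congr_ae (Eventually.of_forall fun z => ?_)
  simp only [dd]; ring

theorem uMom_le_phi {r : ℝ} (hr : 0 ≤ r) : uMom r ≤ phi r := by
  rw [uMom_eq, phi, ← nishimori hr continuous_tanh' abs_tanh_le_one' tanh_neg]
  refine fieldE_mono (f := fun x => tanh x ^ 2 * dd x) (g := fun x => tanh x * tanh x) (A := 1)
    (B := 1) ((continuous_tanh'.pow 2).mul continuous_dd)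
    (continuous_tanh'.mul continuous_tanh') (fun x => ?_) (fun x => ?_)
    (fun x => show tanh x ^ 2 * dd x ≤ tanh x * tanh x by
      nlinarith [sq_nonneg (tanh x), dd_le_one x, dd_nonneg x]) r
  · show |tanh x ^ 2 * dd x| ≤ 1
    rw [abs_mul, abs_pow, sq_abs]
    exact mul_le_one₀ (tanh_sq_le_one x) (abs_nonneg _) (abs_dd_le x)
  · show |tanh x * tanh x| ≤ 1
    rw [← sq, abs_pow, sq_abs]; exact tanh_sq_le_one x

theorem uMom_pos {r : ℝ} (hr : 0 < r) : 0 < uMom r := by
  rw [uMom_eq, fieldE]
  have hc : Continuous fun x => tanh x ^ 2 * dd x := (continuous_tanh'.pow 2).mul continuous_dd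
  have hb : ∀ x, |tanh x ^ 2 * dd x| ≤ 1 := fun x => by
    rw [abs_mul, abs_pow, sq_abs]
    exact mul_le_one₀ (tanh_sq_le_one x) (abs_nonneg _) (abs_dd_le x)
  rw [integral_pos_iff_support_of_nonneg (fun z => mul_nonneg (sq_nonneg _) (dd_nonneg _))
    (integrable_field hc (bdd_linear hb) r √r)]
  have hs : 0 < volume (Function.support fun z => tanh (r + √r * z) ^ 2 * dd (r + √r * z)) := by
    refine IsOpen.measure_pos volume ((hc.comp (by fun_prop)).isOpen_support) ⟨0, ?_⟩
    simp only [Function.mem_support, mul_zero, add_zero, dd]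
    refine mul_ne_zero (pow_ne_zero _ fun h => hr.ne' (tanh_injective (h.trans tanh_zero.symm))) ?_
    linarith [tanh_sq_lt_one r]
  refine pos_iff_ne_zero.2 fun h => hs.ne' (?_)
  exact gaussianReal_absolutelyContinuous' 0 one_ne_zero h

/-- `phi' = E D²`. -/
theorem hasDerivAt_phi {r : ℝ} (hr : 0 < r) : HasDerivAt phi (eMom r) r := by
  have hcF : Continuous fun x => tanh x * dd x := continuous_tanh'.mul continuous_dd
  have hbF : ∀ x, |tanh x * dd x| ≤ 1 := fun x => by
    rw [abs_mul]; exact mul_le_one₀ (abs_tanh_le_one' x) (abs_nonneg _) (abs_dd_le x)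
  have hn : fieldE r (fun x => tanh x * (tanh x * dd x)) = fieldE r (fun x => tanh x * dd x) :=
    nishimori hr.le hcF hbF fun x => by simp [dd, tanh_neg]
  have h2 : ∀ x, |-(2 * tanh x * dd x)| ≤ 2 := fun x => by
    rw [abs_neg, mul_assoc, abs_mul, abs_two]; linarith [hbF x]
  have h := hasDerivAt_fieldE hr hasDerivAt_tanh' hasDerivAt_dd
    (by have := continuous_tanh'; have := continuous_dd; fun_prop)
    (bdd_linear abs_tanh_le_one') (fun x => (abs_dd_le x).trans one_le_two) h2
  refine h.congr_deriv ?_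
  have e2 : fieldE r (fun x => -(2 * tanh x * dd x)) = -2 * fieldE r fun x => tanh x * dd x := by
    simp only [fieldE, ← integral_const_mul]
    exact integral_congr_ae (Eventually.of_forall fun z => by ring)
  have e3 : eMom r = dMom r - fieldE r fun x => tanh x * (tanh x * dd x) := by
    have hu : fieldE r (fun x => tanh x * (tanh x * dd x)) = uMom r := by
      rw [uMom_eq]
      exact integral_congr_ae (Eventually.of_forall fun z => by ring)
    rw [hu, uMom]; ring
  rw [e2, e3, hn, show (fun x => 1 - tanh x ^ 2) = dd from rfl, ← dMom]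
  ring

/-- `phi` is nondecreasing and `1`-Lipschitz on the half line. -/
theorem phi_sub_mem {a b : ℝ} (ha : 0 ≤ a) (hab : a ≤ b) :
    0 ≤ phi b - phi a ∧ phi b - phi a ≤ b - a := by
  have hd : ∀ x ∈ interior (Set.Ici (0 : ℝ)), HasDerivAt phi (eMom x) x := fun x hx =>
    hasDerivAt_phi (by simpa using hx)
  have h1 : MonotoneOn phi (Set.Ici 0) := monotoneOn_of_hasDerivWithinAt_nonneg (convex_Ici 0)
    continuous_phi.continuousOn (fun x hx => (hd x hx).hasDerivWithinAt) fun x _ => eMom_nonneg x
  have h2 : MonotoneOn (fun x => x - phi x) (Set.Ici 0) :=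
    monotoneOn_of_hasDerivWithinAt_nonneg (convex_Ici 0)
      (continuous_id.sub continuous_phi).continuousOn
      (fun x hx => ((hasDerivAt_id x).sub (hd x hx)).hasDerivWithinAt)
      fun x _ => sub_nonneg.2 (eMom_le_one x)
  constructor
  · linarith [h1 (Set.mem_Ici.2 ha) (Set.mem_Ici.2 (ha.trans hab)) hab]
  · linarith [h2 (Set.mem_Ici.2 ha) (Set.mem_Ici.2 (ha.trans hab)) hab]

theorem phi_zero : phi 0 = 0 := by simp [phi, fieldE]

/-- The overlap tends to one exponentially fast. -/
theorem one_sub_phi_le {r : ℝ} (hr : 0 ≤ r) : 1 - phi r ≤ 2 * exp (-(r / 2)) := by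
  rw [← dMom_eq hr, dMom, fieldE_shift hr]
  refine (integral_mono_of_nonneg (Eventually.of_forall fun z =>
    mul_nonneg (dd_nonneg _) (exp_pos _).le) (integrable_const (2 * exp (-(r / 2))))
    (Eventually.of_forall fun z => ?_)).trans (le_of_eq (by simp))
  show dd (√r * z) * exp (√r * z - r / 2) ≤ 2 * exp (-(r / 2))
  set x := √r * z
  rw [show x - r / 2 = x + -(r / 2) by ring, exp_add, ← mul_assoc]
  refine mul_le_mul_of_nonneg_right ?_ (exp_pos _).le
  have hd : dd x = 1 / cosh x ^ 2 := by
    rw [dd, tanh_eq_sinh_div_cosh]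
    have := cosh_sq x
    field_simp
    linarith
  rw [hd, div_mul_eq_mul_div, one_mul, div_le_iff₀ (pow_pos (cosh_pos x) 2)]
  have h1 : exp x ≤ 2 * cosh x := by rw [cosh_eq]; linarith [exp_pos (-x)]
  nlinarith [one_le_cosh x]

end Vale.Agent.P150.Full.E
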