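import Vale.Agent.P150.Full.E.ScalarPhi
import Vale.Agent.P150.Full.E.Pins

/-!
# P150, planted side: the replica-symmetric value

The fixed point `q = rsPhi (t + β² q)`, its continuity in `t`, and the quadratic gap of `rsVal`.
-/

open MeasureTheory ProbabilityTheory Real Filter Topology
open Vale.Agent.P150.Beyond.Planted Vale.Agent.P150.Full.ScalarB

namespace Vale.Agent.P150.Full.E

theorem rsPhi_eq (r : ℝ) : rsPhi r = phi r := rfl

theorem hasDerivAt_logCosh (x : ℝ) : HasDerivAt (fun y => log (cosh y)) (tanh x) x := by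
  refine ((hasDerivAt_cosh x).log (cosh_pos x).ne').congr_deriv ?_
  rw [tanh_eq_sinh_div_cosh]

theorem abs_logCosh_le (x : ℝ) : |log (cosh x)| ≤ 1 * (1 + |x|) := by
  rw [abs_of_nonneg (log_nonneg (one_le_cosh x)), one_mul]
  have h : cosh x ≤ exp |x| := by
    rw [← cosh_abs, cosh_eq]
    linarith [exp_le_exp.2 (neg_le_self (abs_nonneg x))]
  have := log_le_log (cosh_pos x) h
  rw [log_exp] at this
  linarith

theorem continuous_logCosh : Continuous fun y => log (cosh y) :=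
  continuous_iff_continuousAt.2 fun x => (hasDerivAt_logCosh x).continuousAt

/-- `rsVal` through `fieldE`. -/
theorem rsVal_eq (β σ M : ℝ) : rsVal β σ M =
    fieldE (σ + β ^ 2 * M) (fun y => log (cosh y)) - β ^ 2 * M ^ 2 / 2 +
      β ^ 2 * (1 - M) ^ 2 / 4 := rfl

/-- `rsVal' = β² (rsPhi - M) / 2`. -/
theorem hasDerivAt_rsVal {β σ M : ℝ} (h : 0 < σ + β ^ 2 * M) :
    HasDerivAt (rsVal β σ) (β ^ 2 / 2 * (rsPhi (σ + β ^ 2 * M) - M)) M := by
  have hd := hasDerivAt_fieldE h hasDerivAt_logCosh hasDerivAt_tanh' continuous_dd abs_logCosh_le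
    (B := 1) abs_tanh_le_one' abs_dd_le
  have e : fieldE (σ + β ^ 2 * M) tanh + fieldE (σ + β ^ 2 * M) dd / 2
      = 1 / 2 + rsPhi (σ + β ^ 2 * M) / 2 := by
    rw [← dMom, dMom_eq h.le, rsPhi_eq, phi]; ring
  rw [show (fun x => 1 - tanh x ^ 2) = dd from rfl, e] at hd
  have hl : HasDerivAt (fun M => σ + β ^ 2 * M) (β ^ 2) M := by
    simpa using ((hasDerivAt_id M).const_mul (β ^ 2)).const_add σ
  have h1 : HasDerivAt (fun M => β ^ 2 * M ^ 2 / 2) (β ^ 2 * (2 * M) / 2) M := by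
    simpa using ((hasDerivAt_pow 2 M).const_mul (β ^ 2)).div_const 2
  have h2 : HasDerivAt (fun M => β ^ 2 * (1 - M) ^ 2 / 4) (β ^ 2 * (-(2 * (1 - M))) / 4) M := by
    simpa using ((((hasDerivAt_id M).const_sub 1).pow 2).const_mul (β ^ 2)).div_const 4
  have h3 : HasDerivAt (rsVal β σ)
      ((1 / 2 + rsPhi (σ + β ^ 2 * M) / 2) * β ^ 2 - β ^ 2 * (2 * M) / 2
        + β ^ 2 * (-(2 * (1 - M))) / 4) M := by
    have h0 := hd.comp M hl
    exact (h0.sub h1).add h2
  refine h3.congr_deriv ?_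
  ring

theorem continuous_rsVal (β σ : ℝ) : Continuous (rsVal β σ) := by
  have h := (continuous_fieldE continuous_logCosh abs_logCosh_le).comp
    (by fun_prop : Continuous fun M : ℝ => σ + β ^ 2 * M)
  exact (h.sub (by fun_prop)).add (by fun_prop)

variable {β σ : ℝ}

theorem sq_lt_one_of_abs (hβ : |β| < 1) : β ^ 2 < 1 := (sq_lt_one_iff_abs_lt_one β).2 hβ

/-- The overlap equation has a solution in `[0, 1]`. -/
theorem exists_fixed (hσ : 0 ≤ σ) : ∃ q, 0 ≤ q ∧ q ≤ 1 ∧ q = rsPhi (σ + β ^ 2 * q) := by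
  have hc : Continuous fun q => phi (σ + β ^ 2 * q) - q :=
    (continuous_phi.comp (by fun_prop)).sub continuous_id
  obtain ⟨q, hq, he⟩ := intermediate_value_Icc' zero_le_one hc.continuousOn
    (show (0 : ℝ) ∈ Set.Icc _ _ from
      ⟨by
        have := phi_le_one (show 0 ≤ σ + β ^ 2 * 1 by positivity)
        show phi (σ + β ^ 2 * 1) - 1 ≤ 0
        linarith, by
        have := phi_nonneg (show 0 ≤ σ + β ^ 2 * 0 by simp [hσ])
        show (0 : ℝ) ≤ phi (σ + β ^ 2 * 0) - 0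
        linarith⟩)
  refine ⟨q, hq.1, hq.2, ?_⟩
  rw [rsPhi_eq]
  simp only at he
  linarith

/-- Monotone and Lipschitz dependence of the fixed point on the signal; in particular uniqueness. -/
theorem fixed_sub_mem (hβ : β ^ 2 < 1) {σ' q q' : ℝ} (hσ : 0 ≤ σ) (hσ' : σ ≤ σ') (hq : 0 ≤ q)
    (hq' : 0 ≤ q') (he : q = rsPhi (σ + β ^ 2 * q)) (he' : q' = rsPhi (σ' + β ^ 2 * q')) :
    0 ≤ q' - q ∧ q' - q ≤ (σ' - σ) / (1 - β ^ 2) := by
  have h0 : 0 ≤ σ + β ^ 2 * q := by positivity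
  have h0' : 0 ≤ σ' + β ^ 2 * q' := add_nonneg (hσ.trans hσ') (by positivity)
  rw [rsPhi_eq] at he he'
  have hge : q ≤ q' := by
    by_contra hlt
    push Not at hlt
    rcases le_total (σ + β ^ 2 * q) (σ' + β ^ 2 * q') with h | h
    · linarith [(phi_sub_mem h0 h).1]
    · nlinarith [(phi_sub_mem h0' h).2]
  refine ⟨sub_nonneg.2 hge, ?_⟩
  rw [le_div_iff₀ (sub_pos.2 hβ)]
  have h : σ + β ^ 2 * q ≤ σ' + β ^ 2 * q' := by
    linarith [mul_le_mul_of_nonneg_left hge (sq_nonneg β)]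
  linarith [(phi_sub_mem h0 h).2]

theorem fixed_unique (hβ : β ^ 2 < 1) {q q' : ℝ} (hσ : 0 ≤ σ) (hq : 0 ≤ q) (hq' : 0 ≤ q')
    (he : q = rsPhi (σ + β ^ 2 * q)) (he' : q' = rsPhi (σ + β ^ 2 * q')) : q = q' := by
  have h := fixed_sub_mem hβ hσ le_rfl hq hq' he he'
  simp at h
  linarith

/-- The fixed point is near one for a strong signal. -/
theorem one_sub_fixed_le {q : ℝ} (hσ : 0 ≤ σ) (hq : 0 ≤ q) (he : q = rsPhi (σ + β ^ 2 * q)) :
    1 - q ≤ 2 * exp (-(σ / 2)) := by
  have h := one_sub_phi_le (show 0 ≤ σ + β ^ 2 * q by positivity)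
  rw [← rsPhi_eq, ← he] at h
  refine h.trans (mul_le_mul_of_nonneg_left (exp_le_exp.2 ?_) zero_le_two)
  linarith [mul_nonneg (sq_nonneg β) hq]

/-- **The quadratic gap** on nonnegative overlaps. -/
theorem rsVal_gap (hβ : β ^ 2 < 1) {q M : ℝ} (hσ : 0 ≤ σ) (hq : 0 ≤ q)
    (he : q = rsPhi (σ + β ^ 2 * q)) (hM : 0 ≤ M) :
    rsVal β σ M + β ^ 2 * (1 - β ^ 2) / 4 * (M - q) ^ 2 ≤ rsVal β σ q := by
  rcases eq_or_ne β 0 with rfl | hb
  · simp [rsVal]
  have hc0 : 0 < β ^ 2 := by positivity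
  set k := β ^ 2 * (1 - β ^ 2) / 4
  set G := fun x => rsVal β σ x + k * (x - q) ^ 2
  have hG : Continuous G := (continuous_rsVal β σ).add (by fun_prop)
  have hd : ∀ x, 0 < x → HasDerivAt G
      (β ^ 2 / 2 * (phi (σ + β ^ 2 * x) - x) + k * (2 * (x - q))) x := fun x hx => by
    have h2 : HasDerivAt (fun y => k * (y - q) ^ 2) (k * (2 * (x - q))) x := by
      simpa using (((hasDerivAt_id x).sub_const q).pow 2).const_mul k
    exact (hasDerivAt_rsVal (by positivity)).add h2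
  rw [rsPhi_eq] at he
  have hval : G q = rsVal β σ q := by simp [G]
  rcases le_total M q with h | h
  · have hmono : MonotoneOn G (Set.Icc 0 q) := by
      refine monotoneOn_of_hasDerivWithinAt_nonneg (convex_Icc 0 q) hG.continuousOn
        (f' := fun x => β ^ 2 / 2 * (phi (σ + β ^ 2 * x) - x) + k * (2 * (x - q))) ?_ ?_
      · rw [interior_Icc]; exact fun x hx => (hd x hx.1).hasDerivWithinAt
      · rw [interior_Icc]
        intro x hx
        have h1 := (phi_sub_mem (a := σ + β ^ 2 * x) (b := σ + β ^ 2 * q)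
          (add_nonneg hσ (by have := hx.1; positivity))
          (by linarith [mul_le_mul_of_nonneg_left hx.2.le hc0.le])).2
        simp only [k]
        nlinarith [mul_le_mul_of_nonneg_left (show (1 - β ^ 2) * (q - x) ≤ phi (σ + β ^ 2 * x) - x by
          linarith) (by positivity : 0 ≤ β ^ 2 / 2)]
    rw [← hval]
    exact hmono ⟨hM, h⟩ ⟨hq, le_rfl⟩ h
  · have hanti : AntitoneOn G (Set.Ici q) := by
      refine antitoneOn_of_hasDerivWithinAt_nonpos (convex_Ici q) hG.continuousOn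
        (f' := fun x => β ^ 2 / 2 * (phi (σ + β ^ 2 * x) - x) + k * (2 * (x - q))) ?_ ?_
      · rw [interior_Ici]; exact fun x hx => (hd x (hq.trans_lt hx)).hasDerivWithinAt
      · rw [interior_Ici]
        intro x hx
        have h1 := (phi_sub_mem (a := σ + β ^ 2 * q) (b := σ + β ^ 2 * x)
          (by positivity) (by linarith [mul_le_mul_of_nonneg_left (le_of_lt hx) hc0.le])).2
        simp only [k]
        nlinarith [mul_le_mul_of_nonneg_left (show phi (σ + β ^ 2 * x) - x ≤ -((1 - β ^ 2) * (x - q)) by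
          linarith) (by positivity : 0 ≤ β ^ 2 / 2)]
    rw [← hval]
    exact hanti (Set.mem_Ici.2 le_rfl) h h

theorem logCosh_sub_ge (a : ℝ) {h : ℝ} (hh : 0 ≤ h) :
    h * tanh a - h ^ 2 / 2 ≤ log (cosh a) - log (cosh (a - h)) := by
  set g := fun x => x ^ 2 / 2 - x * tanh a + log (cosh a) - log (cosh (a - x))
  have hd : ∀ x, HasDerivAt g (x - tanh a + tanh (a - x)) x := fun x => by
    have h1 : HasDerivAt (fun y => log (cosh (a - y))) (-tanh (a - x)) x := by
      simpa [Function.comp_def] using (hasDerivAt_logCosh (a - x)).comp x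
        ((hasDerivAt_id x).const_sub a)
    have h2 : HasDerivAt (fun y => y ^ 2 / 2 - y * tanh a + log (cosh a)) (x - tanh a) x := by
      simpa using (((hasDerivAt_pow 2 x).div_const 2).sub ((hasDerivAt_id x).mul_const (tanh a))).add_const
        (log (cosh a))
    exact (h2.sub h1).congr_deriv (by ring)
  have hm : MonotoneOn g (Set.Ici 0) := monotoneOn_of_hasDerivWithinAt_nonneg (convex_Ici 0)
    (continuous_iff_continuousAt.2 fun x => (hd x).continuousAt).continuousOn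
    (fun x _ => (hd x).hasDerivWithinAt) fun x hx => by
      have hx0 : 0 ≤ x := le_of_lt (by simpa using hx)
      have := abs_tanh_sub_le a (a - x)
      rw [show a - (a - x) = x by ring, abs_of_nonneg hx0] at this
      linarith [le_abs_self (tanh a - tanh (a - x))]
  have := hm (Set.mem_Ici.2 le_rfl) (Set.mem_Ici.2 hh) hh
  simp [g] at this
  linarith

/-- The gap on negative overlaps, with the inner overlap zero. -/
theorem neg_overlap_gap {M : ℝ} (hσ : 0 ≤ σ) (hM : M ≤ 0) :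
    (∫ z, log (cosh (σ + β ^ 2 * M + √σ * z)) ∂std) - β ^ 2 * M ^ 2 / 2 + β ^ 2 / 4
      + β ^ 2 * (1 - β ^ 2) / 2 * M ^ 2 ≤ rsVal β σ 0 := by
  set h := -(β ^ 2 * M) with hh
  have hh0 : 0 ≤ h := by
    rw [hh, neg_nonneg]; exact mul_nonpos_of_nonneg_of_nonpos (sq_nonneg β) hM
  have hlc := integrable_field continuous_logCosh abs_logCosh_le
  have i1 : Integrable (fun z => log (cosh (σ + √σ * z))) std := hlc σ √σ
  have i2 : Integrable (fun z => log (cosh (σ + β ^ 2 * M + √σ * z))) std := hlc _ √σ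
  have i3 : Integrable (fun z => h * tanh (σ + √σ * z) - h ^ 2 / 2) std :=
    ((integrable_field continuous_tanh' (bdd_linear abs_tanh_le_one') σ √σ).const_mul h).sub
      (integrable_const _)
  have hle := integral_mono i3 (i1.sub i2) fun z => by
    show h * tanh (σ + √σ * z) - h ^ 2 / 2 ≤
      log (cosh (σ + √σ * z)) - log (cosh (σ + β ^ 2 * M + √σ * z))
    have := logCosh_sub_ge (σ + √σ * z) hh0
    rwa [show σ + √σ * z - h = σ + β ^ 2 * M + √σ * z by rw [hh]; ring] at this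
  rw [integral_sub ((integrable_field continuous_tanh' (bdd_linear abs_tanh_le_one') σ √σ).const_mul h)
    (integrable_const _), integral_const_mul, integral_const] at hle
  simp only [probReal_univ, one_smul, Pi.sub_apply] at hle
  rw [integral_sub i1 i2] at hle
  have hp : 0 ≤ ∫ z, tanh (σ + √σ * z) ∂std := phi_nonneg hσ
  have e : h ^ 2 = β ^ 2 * β ^ 2 * M ^ 2 := by rw [hh]; ring
  simp only [rsVal, mul_zero, add_zero, sub_zero, one_pow, mul_one]
  nlinarith [mul_nonneg hh0 hp]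

/-- The factors of the margin form are bounded below. -/
theorem margin_factors (hβ : β ^ 2 < 1) {r : ℝ} (hr : 0 ≤ r) :
    1 - β ^ 2 ≤ 1 - β ^ 2 * eMom r ∧ 1 - β ^ 2 ≤ 1 - β ^ 2 * wMom r ∧
      (1 - β ^ 2) ^ 2 * uMom r ≤ rsPhi r * ((1 - β ^ 2 * wMom r) * (1 - β ^ 2 * eMom r)) := by
  have he : β ^ 2 * eMom r ≤ β ^ 2 := mul_le_of_le_one_right (sq_nonneg β) (eMom_le_one r)
  have hw : β ^ 2 * wMom r ≤ β ^ 2 := mul_le_of_le_one_right (sq_nonneg β)
    ((wMom_le_eMom r).trans (eMom_le_one r))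
  refine ⟨by linarith, by linarith, ?_⟩
  rw [rsPhi_eq, sq (1 - β ^ 2), mul_comm]
  exact mul_le_mul (uMom_le_phi hr) (mul_le_mul (by linarith) (by linarith) (by linarith)
    (by linarith)) (mul_nonneg (by linarith) (by linarith)) (phi_nonneg hr)

end Vale.Agent.P150.Full.E
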